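import Vale.Agent.P069.Moduli

/-! P069: a reflexive AMUC space which is not AUC renormable. -/

namespace Vale.Agent.Results.P069.ReflexiveAMUCNotAUC

open Vale.Agent.P069

set_option maxSynthPendingDepth 3 in
theorem result :
    ∃ (X : Type) (_ : NormedAddCommGroup X) (_ : NormedSpace ℝ X),
      CompleteSpace X ∧ ¬ FiniteDimensional ℝ X ∧
      Function.Surjective (NormedSpace.inclusionInDoubleDual ℝ X) ∧
      (∃ N : Seminorm ℝ X, IsEquivNorm N ∧ ∀ t : ℝ, 0 < t →
        0 < midMod N t ∧ Real.sqrt (1 + t ^ 2 / 16) - 1 ≤ midMod N t) ∧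
      ∀ N : Seminorm ℝ X, IsEquivNorm N → ¬ ∀ t : ℝ, 0 < t → 0 < deltaBar N t := by
  refine ⟨Vale.Agent.P069.X, inferInstance, inferInstance, inferInstance, not_finiteDimensional,
    reflexive, ⟨normSeminorm ℝ Vale.Agent.P069.X, ⟨1, 1, one_pos, fun x => by simp⟩, fun t ht => ?_⟩,
    fun N hN => deltaBar_fail N hN⟩
  refine ⟨lt_of_lt_of_le ?_ (midMod_bound t ht), midMod_bound t ht⟩
  rw [sub_pos, Real.lt_sqrt zero_le_one]
  nlinarith

end Vale.Agent.Results.P069.ReflexiveAMUCNotAUC
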